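import Mathlib.LinearAlgebra.Dual.Lemmas
import Mathlib.Data.Real.Basic
import Mathlib.Algebra.Order.Archimedean.Basic
import Mathlib.Tactic

/-! Basic solutions of rational linear programs. -/

namespace Vale.Agent.N302T

open Finset

variable {ι κ : Type*} [Fintype ι]

/-- a nonnegative rational solution which is determined by its support -/
def Basic (A : κ → ι → ℚ) (b : κ → ℚ) (y : ι → ℚ) : Prop :=
  (∀ i, 0 ≤ y i) ∧ (∀ k, ∑ i, A k i * y i = b k) ∧
    ∀ d : ι → ℚ, (∀ i, y i = 0 → d i = 0) → (∀ k, ∑ i, A k i * d i = 0) → d = 0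

theorem basic_finite (A : κ → ι → ℚ) (b : κ → ℚ) : {y | Basic A b y}.Finite := by
  classical
  refine Set.Finite.of_finite_image (f := fun y : ι → ℚ => univ.filter fun i => y i = 0)
    (Set.toFinite _) ?_
  intro y hy y' hy' h
  have h1 : ∀ i, y i = 0 ↔ y' i = 0 := fun i => by
    have := Finset.ext_iff.1 h i
    simpa using this
  have := hy.2.2 (y - y') (fun i hi => by simp [hi, (h1 i).1 hi]) fun k => by
    simp only [Pi.sub_apply, mul_sub, sum_sub_distrib, hy.2.1 k, hy'.2.1 k, sub_self]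
  exact sub_eq_zero.1 this

theorem exists_basic (A : κ → ι → ℚ) (b : κ → ℚ) (c : ι → ℚ) (hc : ∀ i, 0 ≤ c i) (x : ι → ℝ)
    (hx : ∀ i, 0 ≤ x i) (hA : ∀ k, ∑ i, (A k i : ℝ) * x i = b k) :
    ∃ y, Basic A b y ∧ ((∑ i, c i * y i : ℚ) : ℝ) ≤ ∑ i, (c i : ℝ) * x i := by
  classical
  induction h : (univ.filter fun i => x i ≠ 0).card using Nat.strong_induction_on generalizing x with
  | _ N ih =>
  by_cases hd : ∃ d : ι → ℝ, d ≠ 0 ∧ (∀ i, x i = 0 → d i = 0) ∧ ∀ k, ∑ i, (A k i : ℝ) * d i = 0
  · obtain ⟨d, hd0, hd1, hd2, hd3⟩ : ∃ d : ι → ℝ, (∃ i, d i < 0) ∧ (∀ i, x i = 0 → d i = 0) ∧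
        (∀ k, ∑ i, (A k i : ℝ) * d i = 0) ∧ ∑ i, (c i : ℝ) * d i ≤ 0 := by
      obtain ⟨d, h0, h1, h2⟩ := hd
      have hneg : ∀ d : ι → ℝ, d ≠ 0 → (∀ i, x i = 0 → d i = 0) →
          (∀ k, ∑ i, (A k i : ℝ) * d i = 0) → ∑ i, (c i : ℝ) * d i ≤ 0 →
          ∃ d : ι → ℝ, (∃ i, d i < 0) ∧ (∀ i, x i = 0 → d i = 0) ∧
            (∀ k, ∑ i, (A k i : ℝ) * d i = 0) ∧ ∑ i, (c i : ℝ) * d i ≤ 0 := by
        intro d h0 h1 h2 h3
        by_cases hn : ∃ i, d i < 0
        · exact ⟨d, hn, h1, h2, h3⟩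
        · push Not at hn
          obtain ⟨i, hi⟩ := Function.ne_iff.1 h0
          refine ⟨-d, ⟨i, neg_lt_zero.2 (lt_of_le_of_ne (hn i) (Ne.symm hi))⟩,
            fun i hi => by simp [h1 i hi], fun k => by simp [h2 k], ?_⟩
          simp only [Pi.neg_apply, mul_neg, sum_neg_distrib, neg_nonpos]
          exact sum_nonneg fun i _ => mul_nonneg (by exact_mod_cast hc i) (hn i)
      rcases le_total (∑ i, (c i : ℝ) * d i) 0 with h3 | h3
      · exact hneg d h0 h1 h2 h3
      · exact hneg (-d) (neg_ne_zero.2 h0) (fun i hi => by simp [h1 i hi])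
          (fun k => by simp [h2 k]) (by simpa using h3)
    obtain ⟨j, hj, hmin⟩ := (univ.filter fun i => d i < 0).exists_min_image
      (fun i => x i / -d i) (by
        obtain ⟨i, hi⟩ := hd0
        exact ⟨i, by simpa using hi⟩)
    have hj' : d j < 0 := by simpa using hj
    set τ := x j / -d j with hτ
    have hτ0 : 0 ≤ τ := div_nonneg (hx j) (by linarith)
    have hx' : ∀ i, 0 ≤ x i + τ * d i := fun i => by
      by_cases hi : d i < 0
      · have := hmin i (by simpa using hi)
        rw [le_div_iff₀ (by linarith)] at this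
        linarith
      · exact add_nonneg (hx i) (mul_nonneg hτ0 (not_lt.1 hi))
    obtain ⟨y, hy, hle⟩ := ih (univ.filter fun i => x i + τ * d i ≠ 0).card (by
        rw [← h]
        refine card_lt_card ⟨fun i hi => ?_, fun hs => ?_⟩
        · simp only [mem_filter, mem_univ, true_and] at hi ⊢
          intro h0
          exact hi (by rw [h0, hd1 i h0]; simp)
        · have h1 : x j ≠ 0 := fun h0 => hj'.ne (hd1 j h0)
          have h2 := hs (show j ∈ univ.filter fun i => x i ≠ 0 by simpa using h1)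
          simp only [mem_filter, mem_univ, true_and] at h2
          apply h2
          rw [hτ]
          field_simp [hj'.ne]
          ring)
      (fun i => x i + τ * d i) hx' (fun k => by
        simp only [mul_add, sum_add_distrib, hA k, mul_left_comm _ τ, ← mul_sum, hd2 k]
        simp) rfl
    refine ⟨y, hy, hle.trans ?_⟩
    simp only [mul_add, sum_add_distrib, mul_left_comm _ τ, ← mul_sum]
    nlinarith
  · push Not at hd
    obtain ⟨φ, hφ⟩ := Module.Projective.exists_dual_eq_one ℚ (one_ne_zero (α := ℝ))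
    have hq : ∀ (q : ℚ) (r : ℝ), φ ((q : ℝ) * r) = q * φ r := fun q r => by
      rw [← Rat.smul_def, map_smul, smul_eq_mul]
    have h1 : ∀ k, ∑ i, A k i * φ (x i) = b k := fun k => by
      have := congrArg φ (hA k)
      rw [map_sum, ← mul_one (b k : ℝ), hq, hφ, mul_one] at this
      simpa only [hq] using this
    have h2 : ∀ i, x i = (φ (x i) : ℝ) := by
      by_contra hne
      push Not at hne
      obtain ⟨i, hi⟩ := hne
      obtain ⟨k, hk⟩ := hd (fun i => x i - φ (x i)) (Function.ne_iff.2 ⟨i, sub_ne_zero.2 hi⟩)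
        fun i hi => by simp [hi]
      apply hk
      simp only [mul_sub, sum_sub_distrib, hA k]
      rw [← h1 k]
      push_cast
      ring
    refine ⟨fun i => φ (x i), ⟨fun i => ?_, h1, fun d h3 h4 => ?_⟩, ?_⟩
    · have := hx i
      rw [h2 i] at this
      exact_mod_cast this
    · by_contra hne
      obtain ⟨k, hk⟩ := hd (fun i => (d i : ℝ)) (by
          obtain ⟨i, hi⟩ := Function.ne_iff.1 hne
          exact Function.ne_iff.2 ⟨i, by simpa using hi⟩)
        fun i hi => by simp [h3 i (by simp [hi])]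
      apply hk
      exact_mod_cast h4 k
    · push_cast
      exact le_of_eq (sum_congr rfl fun i _ => by rw [← h2 i])

end Vale.Agent.N302T
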