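import Mathlib.Data.Real.Basic
import Mathlib.Data.Finsupp.Defs
import Mathlib.Algebra.BigOperators.Finsupp.Basic
import Mathlib.Order.Bounds.Defs

/-! Bin packing instances as multisets of sizes; the optimum, the configuration LP, the gaps. -/

namespace Vale.Agent.N302T

/-- All item sizes lie in `(0,1]`. -/
def IsInstance (I : Multiset ℚ) : Prop := ∀ s ∈ I, 0 < s ∧ s ≤ 1

/-- The items of `I` can be partitioned into `k` bins (possibly empty) of total size at most `1`. -/
def Packs (I : Multiset ℚ) (k : ℕ) : Prop :=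
  ∃ P : Multiset (Multiset ℚ), P.card = k ∧ P.sum = I ∧ ∀ B ∈ P, B.sum ≤ 1

/-- `v` is the value of a feasible solution `z` of the Gilmore-Gomory configuration LP.  A
configuration is a multiset `c` of sizes occurring in `I` with total size at most `1`. -/
def Feasible (I : Multiset ℚ) (v : ℝ) : Prop :=
  ∃ z : Multiset ℚ →₀ ℝ, (∀ c, 0 ≤ z c) ∧ (∀ c ∈ z.support, (∀ s ∈ c, s ∈ I) ∧ c.sum ≤ 1) ∧
    (∀ s ∈ I, (I.count s : ℝ) ≤ ∑ c ∈ z.support, (c.count s : ℝ) * z c) ∧
    v = ∑ c ∈ z.support, z c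

/-- `OPT(I) = m`. -/
def IsOPT (I : Multiset ℚ) (m : ℕ) : Prop := IsLeast {k | Packs I k} m

/-- `LP(I) = v`. -/
def IsLP (I : Multiset ℚ) (v : ℝ) : Prop := IsLeast {w | Feasible I w} v

/-- The gaps `OPT(I) - LP(I)` of the instances with `OPT(I) = m`. -/
def Gaps (m : ℕ) : Set ℝ := {g | ∃ I v, IsInstance I ∧ IsOPT I m ∧ IsLP I v ∧ g = m - v}

end Vale.Agent.N302T
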