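import Vale.Agent.N302T.Pack
import Vale.Agent.N302.Rate

/-! The set of gaps; the instances with a large gap. -/

namespace Vale.Agent.N302T

open Finset Vale.Agent.P302 Vale.Agent.P302H Vale.Agent.N302

variable {I : Multiset ℚ} {m : ℕ} {v : ℝ}

theorem lp_le {t k : ℕ} (hv : IsLP I v) (ht : 1 ≤ t) (h : Packs (t • I) k) : v ≤ (k : ℝ) / t :=
  hv.2 (feasible_of_packs ht h)

theorem lp_le_opt (hm : IsOPT I m) (hv : IsLP I v) : v ≤ m := by
  simpa using lp_le (t := 1) hv le_rfl (by simpa using hm.1)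

theorem gap_rat {g : ℝ} (h : g ∈ Gaps m) : ∃ q : ℚ, 0 ≤ q ∧ g = q := by
  obtain ⟨I, v, hI, hm, hv, rfl⟩ := h
  obtain ⟨t, k, -, -, h1⟩ := exists_lp hI
  have h2 := lp_le_opt hm hv
  obtain rfl := hv.unique h1
  have e : (m : ℝ) - k / t = ((m - k / t : ℚ) : ℝ) := by push_cast; rfl
  refine ⟨m - k / t, ?_, e⟩
  have : (0 : ℝ) ≤ ((m - k / t : ℚ) : ℝ) := by rw [← e]; linarith
  exact_mod_cast this

theorem exists_den (X : Multiset ℚ) : ∃ D : ℕ, 0 < D ∧ ∀ s ∈ X, ∃ z : ℤ, s * D = z := by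
  induction X using Multiset.induction_on with
  | empty => exact ⟨1, one_pos, by simp⟩
  | cons r X ih =>
    obtain ⟨D, hD, h⟩ := ih
    refine ⟨r.den * D, Nat.mul_pos r.den_pos hD, fun s hs => ?_⟩
    rcases Multiset.mem_cons.1 hs with rfl | hs
    · exact ⟨s.num * D, by push_cast; rw [← mul_assoc, Rat.mul_den_eq_num]⟩
    · obtain ⟨z, hz⟩ := h s hs
      exact ⟨r.den * z, by push_cast; rw [← hz]; ring⟩

theorem gap_down {g : ℝ} (h : g ∈ Gaps m) {q : ℚ} (h0 : 0 ≤ q) (hq : (q : ℝ) ≤ g) :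
    (q : ℝ) ∈ Gaps m := by
  obtain ⟨I, v, hI, hm, hv, rfl⟩ := h
  obtain ⟨t, k, ht, hk, h1⟩ := exists_lp hI
  obtain rfl := hv.unique h1
  have hI0 : ∀ s ∈ I, 0 ≤ s := fun s hs => (hI s hs).1.le
  have ht' : (0 : ℚ) < t := by exact_mod_cast ht
  set r : ℚ := m - q with hr
  have a1 : (k : ℚ) / t ≤ r := by
    have : (((k : ℚ) / t : ℚ) : ℝ) ≤ (r : ℝ) := by rw [hr]; push_cast; linarith
    exact_mod_cast this
  have a2 : I.sum ≤ (k : ℚ) / t := by
    have : (I.sum : ℝ) ≤ (((k : ℚ) / t : ℚ) : ℝ) := by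
      rw [Rat.cast_div, Rat.cast_natCast, Rat.cast_natCast]
      exact h1.1.sum_le hI0
    exact_mod_cast this
  obtain ⟨D, hD, hz⟩ := exists_den (r ::ₘ I)
  have hD' : (0 : ℚ) < D := by exact_mod_cast hD
  have hzI : ∀ s ∈ I, ∃ z : ℤ, s * D = z := fun s hs => hz s (Multiset.mem_cons_of_mem hs)
  obtain ⟨zr, hzr⟩ := hz r (Multiset.mem_cons_self _ _)
  obtain ⟨zs, hzs⟩ := sum_grid hzI
  obtain ⟨p, hp⟩ : ∃ p : ℕ, (p : ℚ) = (r - I.sum) * D := by
    have h2 : (0 : ℚ) ≤ ((zr - zs : ℤ) : ℚ) := by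
      push_cast
      rw [← hzr, ← hzs, ← sub_mul]
      exact mul_nonneg (by linarith) hD'.le
    obtain ⟨p, hp⟩ := Int.eq_ofNat_of_zero_le (show 0 ≤ zr - zs by exact_mod_cast h2)
    refine ⟨p, ?_⟩
    rw [sub_mul, hzr, hzs]
    exact_mod_cast hp.symm
  obtain ⟨u, hu⟩ : ∃ u : ℕ, (u : ℚ) = r * D := by
    have h2 : (0 : ℚ) ≤ (zr : ℚ) := by
      rw [← hzr]
      exact mul_nonneg (le_trans (by positivity) a1) hD'.le
    obtain ⟨u, hu⟩ := Int.eq_ofNat_of_zero_le (show 0 ≤ zr by exact_mod_cast h2)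
    exact ⟨u, by rw [hzr]; exact_mod_cast hu.symm⟩
  have hs : I.sum + p * (1 / D) = r := by rw [hp]; field_simp; ring
  have hI' : IsInstance (Multiset.replicate p (1 / (D : ℚ)) + I) := fun s hs => by
    rcases Multiset.mem_add.1 hs with h2 | h2
    · rw [Multiset.eq_of_mem_replicate h2]
      exact ⟨by positivity, by rw [div_le_one hD']; exact_mod_cast hD⟩
    · exact hI s h2
  refine ⟨_, r, hI', ⟨hm.1.sand hD hzI p (by rw [hs, hr]; linarith), fun j hj =>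
    hm.2 (Packs.of_le hj (fun s hs => (hI' s hs).1.le) (Multiset.le_add_left _ _))⟩,
    ⟨?_, fun w hw => ?_⟩, by rw [hr]; push_cast; ring⟩
  · have b1 : D * k ≤ t * u := by
      rw [div_le_iff₀ ht'] at a1
      have : ((D * k : ℕ) : ℚ) ≤ (t * u : ℕ) := by
        push_cast
        rw [hu]
        nlinarith
      exact_mod_cast this
    have b2 := (hk.nsmul D).mono b1
    rw [smul_smul] at b2
    have b3 := b2.sand hD (fun s hs => hzI s (Multiset.mem_of_mem_nsmul hs)) (D * t * p) (by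
      rw [Multiset.sum_nsmul, nsmul_eq_mul]
      push_cast
      rw [hu, ← hs]
      apply le_of_eq
      ring)
    rw [← Multiset.nsmul_replicate, ← smul_add] at b3
    have b4 := feasible_of_packs (Nat.mul_pos hD ht) b3
    have b5 : ((t * u : ℕ) : ℚ) / (D * t : ℕ) = r := by
      push_cast
      rw [hu]
      field_simp
    rw [← b5]
    push_cast at b4 ⊢
    exact b4
  · have := hw.sum_le fun s hs => (hI' s hs).1.le
    rwa [Multiset.sum_add, Multiset.sum_replicate, nsmul_eq_mul, add_comm, hs] at this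

theorem gap_succ {g : ℝ} (h : g ∈ Gaps m) : g ∈ Gaps (m + 1) := by
  obtain ⟨I, v, hI, hm, hv, rfl⟩ := h
  have h0 : ∀ s ∈ I, 0 < s := fun s hs => (hI s hs).1
  have hI' : IsInstance (1 ::ₘ I) := fun s hs => by
    rcases Multiset.mem_cons.1 hs with rfl | hs
    · exact ⟨one_pos, le_rfl⟩
    · exact hI s hs
  have h1 : Packs {1} 1 := packs_one (by simp)
  have e : ∀ t : ℕ, t • (1 ::ₘ I) = Multiset.replicate t 1 + t • I := fun t => by
    rw [← Multiset.singleton_add, smul_add, Multiset.nsmul_singleton]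
  obtain ⟨t, k, ht, hk, h2⟩ := exists_lp hI
  obtain ⟨t', k', ht', hk', h3⟩ := exists_lp hI'
  obtain rfl := hv.unique h2
  have t0 : (0 : ℝ) < t := by exact_mod_cast ht
  have t0' : (0 : ℝ) < t' := by exact_mod_cast ht'
  refine ⟨_, _, hI', ⟨?_, fun j hj => ?_⟩, h3, ?_⟩
  · have := h1.add hm.1
    rwa [Multiset.singleton_add, add_comm] at this
  · obtain ⟨i, rfl, hi⟩ := Packs.remove h0 hj
    exact Nat.succ_le_succ (hm.2 hi)
  · have a1 : (k' : ℝ) / t' ≤ ((t * 1 + k : ℕ) : ℝ) / t := lp_le h3 ht (by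
      rw [e, ← Multiset.nsmul_singleton]
      exact (h1.nsmul t).add hk)
    rw [e] at hk'
    obtain ⟨j, rfl, hj⟩ := Packs.remove_many
      (fun s hs => h0 s (Multiset.mem_of_mem_nsmul hs)) t' hk'
    have a2 := lp_le h2 ht' hj
    push_cast at a1 ⊢
    rw [add_div, div_self t0'.ne'] at a1 ⊢
    rw [mul_one, add_div, div_self t0.ne'] at a1
    linarith

section bridge

variable {n : ℕ} {a : Fin n → ℚ}

theorem packs_of_sets {J : Type} [Fintype J] (B : J → Finset (Fin n))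
    (hB : ∀ x, ∑ i ∈ B x, a i ≤ 1) {r : ℕ} (hc : ∀ i, (univ.filter fun x => i ∈ B x).card = r) :
    Packs (r • univ.val.map a) (Fintype.card J) := by
  classical
  refine ⟨univ.val.map fun x => (B x).val.map a, by simp, ?_, fun C hC => ?_⟩
  · have h1 : ∑ x, (B x).val = r • (univ : Finset (Fin n)).val := by
      ext i
      rw [Multiset.count_sum', Multiset.count_nsmul, Multiset.count_univ, mul_one, ← hc i,
        card_filter]
      refine sum_congr rfl fun x _ => ?_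
      split_ifs with h
      · exact Multiset.count_eq_one_of_mem (B x).nodup h
      · exact Multiset.count_eq_zero_of_notMem h
    rw [← Multiset.map_nsmul, ← h1]
    exact (map_sum (Multiset.mapAddMonoidHom a) _ _).symm
  · obtain ⟨x, -, rfl⟩ := Multiset.mem_map.1 hC
    exact hB x

theorem split {ι : Type*} (a : ι → ℚ) (B R : Multiset ℚ) (s : Multiset ι) (h : s.map a = B + R) :
    ∃ s1 s2, s = s1 + s2 ∧ s1.map a = B ∧ s2.map a = R := by
  classical
  induction B using Multiset.induction_on generalizing s with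
  | empty => exact ⟨0, s, by simp, by simp, by simpa using h⟩
  | cons b B ih =>
    rw [Multiset.cons_add] at h
    obtain ⟨i, hi, rfl, h1⟩ := (Multiset.map_eq_cons a s _ _).2 h
    obtain ⟨s1, s2, h2, rfl, rfl⟩ := ih _ h1
    exact ⟨i ::ₘ s1, s2, by rw [Multiset.cons_add, ← h2, Multiset.cons_erase hi], by simp, rfl⟩

theorem lift {ι : Type*} (a : ι → ℚ) (P : Multiset (Multiset ℚ)) (s : Multiset ι)
    (h : s.map a = P.sum) : ∃ Q : Multiset (Multiset ι), Q.sum = s ∧ Q.map (Multiset.map a) = P := by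
  induction P using Multiset.induction_on generalizing s with
  | empty => exact ⟨0, by simpa [eq_comm] using h, rfl⟩
  | cons B P ih =>
    rw [Multiset.sum_cons] at h
    obtain ⟨s1, s2, rfl, rfl, h2⟩ := split a _ _ s h
    obtain ⟨Q, rfl, rfl⟩ := ih s2 h2
    exact ⟨s1 ::ₘ Q, by simp, by simp⟩

theorem isOPT_map (h : ∀ i, 0 ≤ a i ∧ a i ≤ 1) : IsOPT (univ.val.map a) (OPT a) := by
  classical
  constructor
  · obtain ⟨f, hf⟩ := OPT_spec a fun i => (h i).2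
    have := packs_of_sets (fun b => univ.filter fun i => f i = b) hf (r := 1) fun i => by
      simp [filter_eq]
    simpa using this
  · rintro k ⟨P, rfl, hs, hP⟩
    obtain ⟨Q, hQ, rfl⟩ := lift a P _ hs.symm
    rw [Multiset.card_map, ← Multiset.card_coe]
    refine opt_le_card' (fun i => (h i).1) (fun x : Q.ToType => x.1.toFinset) (fun x => ?_)
      fun i => ?_
    · have hx : x.1 ∈ Q := Multiset.coe_mem
      have h1 : x.1.Nodup := Multiset.nodup_of_le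
        (hQ ▸ Multiset.single_le_sum (fun _ _ => zero_le) _ hx) univ.nodup
      have h2 := hP _ (Multiset.mem_map_of_mem _ hx)
      rwa [Finset.sum, Multiset.toFinset_val, Multiset.dedup_eq_self.2 h1]
    · obtain ⟨B, hB, hi⟩ := Multiset.mem_join.1 (show i ∈ Q.sum by rw [hQ]; exact mem_univ i)
      exact ⟨⟨B, 0, Multiset.count_pos.2 hB⟩, Multiset.mem_toFinset.2 hi⟩

end bridge

theorem inst_of {N : ℕ} {w : Fin (3 * N) → ℤ} (h : Dbl w N) : ∃ (I : Multiset ℚ) (m : ℕ),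
    IsInstance I ∧ IsOPT I m ∧ Packs (2 • I) (2 * N) ∧ 3 * N ≤ 2 * m + tau (Fw w) ∧
      2 * m + tau (Fw w) ≤ 3 * N + 1 := by
  obtain ⟨d, h1, h2, h3⟩ := realise w (lt_min one_pos (show (0 : ℚ) < 1 / 12 by norm_num))
  have h4 := (near_of h2).1
  have h5 : ∀ x : Fin 3 → Fin (3 * N), Fw w x ↔ ∑ r, (1 / 3 + d (x r)) ≤ 1 := fun x => by
    rw [Fw, h3]
    simp only [Fin.sum_univ_three]
    constructor <;> intro h <;> linarith
  obtain ⟨J, _, B, b1, b2, b3⟩ := h.sets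
  have h6 := packs_of_sets (a := fun i => 1 / 3 + d i) B (fun x => by
    obtain ⟨y, c1, c2⟩ := b2 x
    rw [c2]
    exact (h5 y).1 c1) b3
  have h7 := opt_tau fun i => (⟨(h4 i).1, (h4 i).2.1⟩ : _ ∧ _)
  rw [← tau_eq (F := Fw w) (Equiv.refl _) h5] at h7
  refine ⟨_, _, fun s hs => ?_,
    isOPT_map fun i => ⟨by linarith [(h4 i).1], by linarith [(h4 i).2.1]⟩, b1 ▸ h6, h7⟩
  obtain ⟨i, -, rfl⟩ := Multiset.mem_map.1 hs
  exact ⟨by linarith [(h4 i).1], by linarith [(h4 i).2.1]⟩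

theorem double (c : ℕ) : ∃ (I : Multiset ℚ) (N : ℕ), IsInstance I ∧ Packs (I + I) (2 * N) ∧
    ¬ Packs I (N + c) := by
  obtain ⟨u, h1, -, h3⟩ := exists_pad (8 * c)
  obtain ⟨w, h4, h5⟩ := h3 _ le_rfl
  obtain ⟨I, m, a1, a2, a3, a4, -⟩ := inst_of h4
  refine ⟨I, _, a1, two_nsmul I ▸ a3, fun h => ?_⟩
  have := a2.2 h
  omega

theorem not_mirup : ¬ ∀ (I : Multiset ℚ) (m : ℕ) (v : ℝ),
    IsInstance I → IsOPT I m → IsLP I v → (m : ℤ) ≤ ⌈v⌉ + 1 := by
  intro h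
  obtain ⟨I, N, h1, h2, h3⟩ := double 1
  obtain ⟨m, hm⟩ := exists_opt h1
  obtain ⟨t, k, -, -, hv⟩ := exists_lp h1
  have h4 := h I m _ h1 hm hv
  have h5 := lp_le (t := 2) hv one_le_two (by rwa [two_nsmul])
  have h6 : ⌈(k : ℝ) / t⌉ ≤ (N : ℤ) := Int.ceil_le.2 (by push_cast at h5 ⊢; linarith)
  exact h3 (hm.1.mono (by omega))

theorem gap_rate {K : ℝ} (hK : 8 < K) : ∃ m₀ : ℕ, ∀ m ≥ m₀, ∀ q : ℚ, 0 ≤ q →
    (q : ℝ) ≤ √(Real.log m / Real.log (Real.log m)) / K → (q : ℝ) ∈ Gaps m := by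
  obtain ⟨m₀, h⟩ := N302.exists_gap hK
  refine ⟨m₀, fun m hm q h0 hq => ?_⟩
  obtain ⟨c, h1, h2⟩ := h m hm
  obtain ⟨u, h3, h4, h5⟩ := exists_pad (8 * c)
  obtain ⟨w, h6, h7⟩ := h5 (m - (u + 1) / 2) (by omega)
  obtain ⟨I, m', a1, a2, a3, a4, a5⟩ := inst_of h6
  obtain rfl : m' = m := by omega
  obtain ⟨t, k, -, -, hv⟩ := exists_lp a1
  have b1 := lp_le (t := 2) hv one_le_two a3
  have b2 : (c : ℝ) + 1 + (m' - (u + 1) / 2 : ℕ) ≤ m' := by
    exact_mod_cast (show c + 1 + (m' - (u + 1) / 2) ≤ m' by omega)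
  refine gap_down ⟨I, _, a1, a2, hv, rfl⟩ h0 ?_
  rw [Nat.cast_mul] at b1
  push_cast at b1
  linarith

theorem gaps_union : ⋃ m, Gaps m = {g : ℝ | ∃ q : ℚ, 0 ≤ q ∧ g = q} := by
  ext g
  rw [Set.mem_iUnion]
  refine ⟨fun ⟨_, h⟩ => gap_rat h, ?_⟩
  rintro ⟨q, h0, rfl⟩
  obtain ⟨c, hc⟩ := exists_nat_ge (q : ℝ)
  obtain ⟨I, N, h1, h2, h3⟩ := double c
  obtain ⟨m, hm⟩ := exists_opt h1
  obtain ⟨t, k, -, -, hv⟩ := exists_lp h1
  have h5 := lp_le (t := 2) hv one_le_two (by rwa [two_nsmul])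
  have h6 : (N : ℝ) + c ≤ m := by
    exact_mod_cast (show N + c ≤ m from le_of_not_ge fun h => h3 (hm.1.mono h))
  refine ⟨m, gap_down ⟨I, _, h1, hm, hv, rfl⟩ h0 ?_⟩
  push_cast at h5
  linarith

end Vale.Agent.N302T
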