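import Vale.Agent.N302T.Defs
import Vale.Agent.N302T.Basic

/-! Packings of multisets and the configuration LP. -/

namespace Vale.Agent.N302T

open Finset

variable {I X Y : Multiset ℚ} {k l : ℕ}

theorem Packs.add (h : Packs X k) (h' : Packs Y l) : Packs (X + Y) (k + l) := by
  obtain ⟨P, rfl, rfl, hP⟩ := h
  obtain ⟨Q, rfl, rfl, hQ⟩ := h'
  exact ⟨P + Q, by simp, by simp, fun B hB => (Multiset.mem_add.1 hB).elim (hP B) (hQ B)⟩

theorem packs_zero (k : ℕ) : Packs 0 k :=
  ⟨Multiset.replicate k 0, by simp, by simp, fun B hB => by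
    rw [Multiset.eq_of_mem_replicate hB]; simp⟩

theorem Packs.mono (h : Packs X k) (hk : k ≤ l) : Packs X l := by
  obtain ⟨j, rfl⟩ := Nat.exists_eq_add_of_le hk
  simpa using h.add (packs_zero j)

theorem Packs.nsmul (h : Packs X k) (t : ℕ) : Packs (t • X) (t * k) := by
  induction t with
  | zero => simpa using packs_zero 0
  | succ t ih => rw [succ_nsmul, Nat.succ_mul]; exact ih.add h

theorem packs_one {B : Multiset ℚ} (h : B.sum ≤ 1) : Packs B 1 :=
  ⟨{B}, by simp, by simp, by simpa using h⟩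

theorem sum_mono (h0 : ∀ s ∈ X, 0 ≤ s) (h : Y ≤ X) : Y.sum ≤ X.sum := by
  obtain ⟨Z, rfl⟩ := Multiset.le_iff_exists_add.1 h
  rw [Multiset.sum_add]
  exact le_add_of_nonneg_right (Multiset.sum_nonneg fun s hs => h0 s (Multiset.mem_add.2 (Or.inr hs)))

theorem Packs.of_le (h : Packs X k) (h0 : ∀ s ∈ X, 0 ≤ s) (hY : Y ≤ X) : Packs Y k := by
  obtain ⟨P, rfl, rfl, hP⟩ := h
  induction P using Multiset.induction_on generalizing Y with
  | empty =>
    rw [Multiset.sum_zero, Multiset.le_zero] at hY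
    rw [hY]
    exact packs_zero _
  | cons B P ih =>
    rw [Multiset.sum_cons] at h0 hY
    have h1 : Packs (Y - B) P.card :=
      ih (fun C hC => hP C (Multiset.mem_cons_of_mem hC))
        (fun s hs => h0 s (Multiset.mem_add.2 (Or.inr hs))) (tsub_le_iff_left.2 hY)
    have h2 : Packs (Y ∩ B) 1 := packs_one ((sum_mono
      (fun s hs => h0 s (Multiset.mem_add.2 (Or.inl hs))) Multiset.inter_le_right).trans
        (hP B (Multiset.mem_cons_self _ _)))
    have := h1.add h2
    rwa [Multiset.sub_add_inter, ← Multiset.card_cons B] at this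

theorem sum_sum_le (P : Multiset (Multiset ℚ)) {r : ℚ} (hP : ∀ B ∈ P, B.sum ≤ r) :
    P.sum.sum ≤ P.card * r := by
  induction P using Multiset.induction_on with
  | empty => simp
  | cons B P ih =>
    rw [Multiset.sum_cons, Multiset.sum_add, Multiset.card_cons]
    have h1 := ih fun C hC => hP C (Multiset.mem_cons_of_mem hC)
    have h2 := hP B (Multiset.mem_cons_self _ _)
    push_cast
    linarith

theorem le_sum_sum (P : Multiset (Multiset ℚ)) {r : ℚ} (hP : ∀ B ∈ P, r ≤ B.sum) :
    P.card * r ≤ P.sum.sum := by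
  induction P using Multiset.induction_on with
  | empty => simp
  | cons B P ih =>
    rw [Multiset.sum_cons, Multiset.sum_add, Multiset.card_cons]
    have h1 := ih fun C hC => hP C (Multiset.mem_cons_of_mem hC)
    have h2 := hP B (Multiset.mem_cons_self _ _)
    push_cast
    linarith

theorem Packs.sum_le (h : Packs X k) : X.sum ≤ k := by
  obtain ⟨P, rfl, rfl, hP⟩ := h
  simpa using sum_sum_le P hP

theorem packs_card (h : IsInstance I) : Packs I I.card := by
  induction I using Multiset.induction_on with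
  | empty => exact packs_zero _
  | cons s I ih =>
    have h1 := ih fun r hr => h r (Multiset.mem_cons_of_mem hr)
    have h2 : Packs {s} 1 := packs_one (by simpa using (h s (Multiset.mem_cons_self _ _)).2)
    have := h2.add h1
    rwa [Multiset.singleton_add, add_comm, ← Multiset.card_cons s] at this

theorem exists_opt (h : IsInstance I) : ∃ m, IsOPT I m := by
  classical
  have he : ∃ k, Packs I k := ⟨_, packs_card h⟩
  exact ⟨Nat.find he, Nat.find_spec he, fun k hk => Nat.find_min' he hk⟩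

/-- an item of size one needs its own bin -/
theorem Packs.remove (h0 : ∀ s ∈ X, 0 < s) (h : Packs (1 ::ₘ X) k) :
    ∃ j, k = j + 1 ∧ Packs X j := by
  obtain ⟨P, rfl, hs, hP⟩ := h
  have h0' : (1 : ℚ) ∈ P.sum := by rw [hs]; exact Multiset.mem_cons_self _ _
  obtain ⟨B, hB, h1⟩ : ∃ B ∈ P, (1 : ℚ) ∈ B := Multiset.mem_join.1 h0'
  clear h0'
  obtain ⟨P, rfl⟩ := Multiset.exists_cons_of_mem hB
  obtain ⟨B, rfl⟩ := Multiset.exists_cons_of_mem h1
  rw [Multiset.sum_cons, Multiset.cons_add, Multiset.cons_inj_right] at hs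
  have h2 := hP _ hB
  rw [Multiset.sum_cons] at h2
  have h3 : B = 0 := by
    by_contra hne
    obtain ⟨s, hs'⟩ := Multiset.exists_mem_of_ne_zero hne
    have hpos : ∀ r ∈ B, 0 < r := fun r hr => h0 r (hs ▸ Multiset.mem_add.2 (Or.inl hr))
    have := Multiset.single_le_sum (fun r hr => (hpos r hr).le) s hs'
    linarith [hpos s hs']
  rw [h3, zero_add] at hs
  exact ⟨P.card, by simp, P, rfl, hs, fun C hC => hP C (Multiset.mem_cons_of_mem hC)⟩

theorem Packs.remove_many (h0 : ∀ s ∈ X, 0 < s) (t : ℕ) (h : Packs (Multiset.replicate t 1 + X) k) :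
    ∃ j, k = j + t ∧ Packs X j := by
  induction t generalizing k with
  | zero => exact ⟨k, rfl, by simpa using h⟩
  | succ t ih =>
    rw [Multiset.replicate_succ, Multiset.cons_add] at h
    obtain ⟨j, rfl, hj⟩ := Packs.remove (fun s hs => (Multiset.mem_add.1 hs).elim
      (fun hs => by rw [Multiset.eq_of_mem_replicate hs]; exact one_pos) (h0 s)) h
    obtain ⟨i, rfl, hi⟩ := ih hj
    exact ⟨i, rfl, hi⟩

theorem sum_grid {D : ℕ} (h : ∀ s ∈ X, ∃ z : ℤ, s * D = z) : ∃ z : ℤ, X.sum * D = z := by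
  induction X using Multiset.induction_on with
  | empty => exact ⟨0, by simp⟩
  | cons s X ih =>
    obtain ⟨a, ha⟩ := h s (Multiset.mem_cons_self _ _)
    obtain ⟨b, hb⟩ := ih fun r hr => h r (Multiset.mem_cons_of_mem hr)
    exact ⟨a + b, by rw [Multiset.sum_cons, add_mul, ha, hb]; push_cast; rfl⟩

/-- grains of size `1/D` fill the free space -/
theorem Packs.sand {D : ℕ} (hD : 0 < D) (hX : ∀ s ∈ X, ∃ z : ℤ, s * D = z) (h : Packs X k)
    (p : ℕ) (hp : X.sum + p * (1 / D) ≤ k) : Packs (Multiset.replicate p (1 / (D : ℚ)) + X) k := by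
  have hD' : (0 : ℚ) < D := by exact_mod_cast hD
  have h1D : (0 : ℚ) < 1 / D := by positivity
  induction p with
  | zero => simpa using h
  | succ p ih =>
    push_cast at hp
    obtain ⟨P, rfl, hs, hP⟩ := ih (by linarith)
    obtain ⟨B, hB, hlt⟩ : ∃ B ∈ P, B.sum < 1 := by
      by_contra hc
      push Not at hc
      have := le_sum_sum P hc
      rw [hs, Multiset.sum_add, Multiset.sum_replicate, nsmul_eq_mul] at this
      linarith
    obtain ⟨P, rfl⟩ := Multiset.exists_cons_of_mem hB
    rw [Multiset.sum_cons] at hs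
    obtain ⟨z, hz⟩ := sum_grid (X := B) (D := D) fun s hs' => by
      have : s ∈ Multiset.replicate p (1 / (D : ℚ)) + X := hs ▸ Multiset.mem_add.2 (Or.inl hs')
      rcases Multiset.mem_add.1 this with h1 | h1
      · exact ⟨1, by rw [Multiset.eq_of_mem_replicate h1]; field_simp; simp⟩
      · exact hX s h1
    have h2 : (z : ℚ) < D := by rw [← hz]; nlinarith
    have h3 : z + 1 ≤ (D : ℤ) := by exact_mod_cast h2
    have h4 : (z : ℚ) + 1 ≤ D := by exact_mod_cast h3
    refine ⟨((1 / (D : ℚ)) ::ₘ B) ::ₘ P, by simp, ?_, fun C hC => ?_⟩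
    · rw [Multiset.sum_cons, Multiset.cons_add, hs, Multiset.replicate_succ, Multiset.cons_add]
    · rcases Multiset.mem_cons.1 hC with rfl | hC
      · rw [Multiset.sum_cons, ← mul_le_mul_iff_left₀ hD', add_mul, hz]
        field_simp
        linarith
      · exact hP C (Multiset.mem_cons_of_mem hC)

theorem feasible_of_packs {t : ℕ} (ht : 1 ≤ t) (h : Packs (t • I) k) :
    Feasible I ((k : ℝ) / t) := by
  classical
  obtain ⟨P, rfl, hs, hP⟩ := h
  have ht' : (0 : ℝ) < t := by exact_mod_cast ht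
  let z : Multiset ℚ →₀ ℝ := Finsupp.onFinset P.toFinset (fun c => (P.count c : ℝ) / t)
    fun c hc => by
      rw [Multiset.mem_toFinset, ← Multiset.count_ne_zero]
      intro h0
      exact hc (by simp [h0])
  have hsub : z.support ⊆ P.toFinset := Finsupp.support_onFinset_subset
  have hsum : ∀ φ : Multiset ℚ → ℝ, ∑ c ∈ z.support, φ c * z c = (P.map φ).sum / t := fun φ => by
    rw [sum_subset hsub fun c _ hc => by rw [Finsupp.notMem_support_iff.1 hc, mul_zero],
      Finset.sum_multiset_map_count, sum_div]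
    refine sum_congr rfl fun c _ => ?_
    show φ c * ((P.count c : ℝ) / t) = _
    rw [nsmul_eq_mul]
    ring
  refine ⟨z, fun c => div_nonneg (Nat.cast_nonneg _) ht'.le, fun c hc => ?_, fun s _ => ?_, ?_⟩
  · have hc' : c ∈ P := Multiset.mem_toFinset.1 (hsub hc)
    refine ⟨fun s hs' => ?_, hP c hc'⟩
    have : s ∈ P.sum := Multiset.mem_of_le (Multiset.single_le_sum (fun _ _ => zero_le) c hc') hs'
    rw [hs] at this
    exact Multiset.mem_of_mem_nsmul this
  · rw [hsum fun c => (c.count s : ℝ), le_div_iff₀ ht']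
    have h1 := Multiset.count_sum (m := P) (f := id) (a := s)
    rw [Multiset.map_id, hs, Multiset.count_nsmul] at h1
    have h2 : ((t * I.count s : ℕ) : ℝ) = (P.map fun c => (c.count s : ℝ)).sum := by
      rw [h1, Nat.cast_multiset_sum, Multiset.map_map]
      rfl
    rw [← h2]
    push_cast
    linarith
  · have := hsum fun _ => 1
    simp only [one_mul, Multiset.map_const', Multiset.sum_replicate, nsmul_eq_mul, mul_one] at this
    exact this.symm

theorem sum_eq_count {c : Multiset ℚ} (h : ∀ s ∈ c, s ∈ I) :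
    c.sum = ∑ s ∈ I.toFinset, (c.count s : ℚ) * s := by
  rw [Finset.sum_multiset_count_of_subset c I.toFinset fun s hs =>
    Multiset.mem_toFinset.2 (h s (Multiset.mem_toFinset.1 hs))]
  simp only [nsmul_eq_mul]

theorem Feasible.sum_le (h0 : ∀ s ∈ I, 0 ≤ s) {v : ℝ} (h : Feasible I v) : (I.sum : ℝ) ≤ v := by
  obtain ⟨z, h1, h2, h3, rfl⟩ := h
  rw [sum_eq_count (I := I) fun _ h => h]
  push_cast
  calc ∑ s ∈ I.toFinset, (I.count s : ℝ) * s
      ≤ ∑ s ∈ I.toFinset, (∑ c ∈ z.support, (c.count s : ℝ) * z c) * s :=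
        sum_le_sum fun s hs => mul_le_mul_of_nonneg_right (h3 s (Multiset.mem_toFinset.1 hs))
          (by exact_mod_cast h0 s (Multiset.mem_toFinset.1 hs))
    _ = ∑ c ∈ z.support, (c.sum : ℝ) * z c := by
        simp only [sum_mul]
        rw [sum_comm]
        refine sum_congr rfl fun c hc => ?_
        rw [sum_eq_count (h2 c hc).1]
        push_cast
        rw [sum_mul]
        exact sum_congr rfl fun s _ => by ring
    _ ≤ ∑ c ∈ z.support, z c := sum_le_sum fun c hc =>
        mul_le_of_le_one_left (h1 c) (by exact_mod_cast (h2 c hc).2)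

theorem common_den {ι : Type*} [Fintype ι] (y : ι → ℚ) (hy : ∀ i, 0 ≤ y i) :
    ∃ t : ℕ, 1 ≤ t ∧ ∃ n : ι → ℕ, ∀ i, (n i : ℚ) = t * y i := by
  refine ⟨∏ i, (y i).den, prod_pos fun i _ => (y i).den_pos, ?_⟩
  have : ∀ i, ∃ n : ℕ, (n : ℚ) = (∏ i, (y i).den : ℕ) * y i := fun i => by
    obtain ⟨u, hu⟩ := dvd_prod_of_mem (fun i => (y i).den) (mem_univ i)
    obtain ⟨a, ha⟩ := Int.eq_ofNat_of_zero_le (Rat.num_nonneg.2 (hy i))
    refine ⟨u * a, ?_⟩
    have h1 : ((y i).den : ℚ) * y i = a := by
      rw [Rat.den_mul_eq_num, ha]; rfl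
    rw [hu]
    push_cast
    rw [← h1]
    ring
  choose n hn using this
  exact ⟨n, hn⟩

/-- **The LP value is attained and equals `OPT(t I) / t` for some `t`.** -/
theorem exists_lp (hI : IsInstance I) :
    ∃ t k : ℕ, 1 ≤ t ∧ Packs (t • I) k ∧ IsLP I ((k : ℝ) / t) := by
  classical
  obtain ⟨N, hN⟩ : ∃ N : ℕ, ∀ s ∈ I, 1 / s ≤ N := by
    obtain ⟨N, hN⟩ := exists_nat_ge (I.map fun s => 1 / s).sum
    refine ⟨N, fun s hs => le_trans (Multiset.single_le_sum (fun r hr => ?_) _
      (Multiset.mem_map_of_mem _ hs)) hN⟩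
    obtain ⟨u, hu, rfl⟩ := Multiset.mem_map.1 hr
    exact (one_div_pos.2 (hI u hu).1).le
  let C : Finset (Multiset ℚ) := (N • I).powerset.toFinset.filter fun c => c.sum ≤ 1
  have hC : ∀ c, c ∈ C ↔ (∀ s ∈ c, s ∈ I) ∧ c.sum ≤ 1 := fun c => by
    simp only [C, mem_filter, Multiset.mem_toFinset, Multiset.mem_powerset]
    refine and_congr_left fun h1 => ⟨fun h s hs => Multiset.mem_of_mem_nsmul
      (Multiset.mem_of_le h hs), fun h => Multiset.le_iff_count.2 fun s => ?_⟩
    by_cases hs : s ∈ c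
    · have h2 : Multiset.replicate (c.count s) s ≤ c := Multiset.le_count_iff_replicate_le.1 le_rfl
      have h3 := sum_mono (fun r hr => (hI r (h r hr)).1.le) h2
      rw [Multiset.sum_replicate, nsmul_eq_mul] at h3
      have h4 := hN s (h s hs)
      have h5 := (hI s (h s hs)).1
      rw [div_le_iff₀ h5] at h4
      have h6 : (c.count s : ℚ) ≤ N := le_of_mul_le_mul_right (by linarith) h5
      have h7 : c.count s ≤ N := by exact_mod_cast h6
      rw [Multiset.count_nsmul]
      exact h7.trans (Nat.le_mul_of_pos_right _ (Multiset.count_pos.2 (h s hs)))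
    · rw [Multiset.count_eq_zero_of_notMem hs]
      exact Nat.zero_le _
  let A : I.toFinset → C ⊕ I.toFinset → ℚ := fun s =>
    Sum.elim (fun c => (c.1.count s.1 : ℚ)) fun r => if r = s then -1 else 0
  let b : I.toFinset → ℚ := fun s => I.count s.1
  let w : C ⊕ I.toFinset → ℚ := Sum.elim (fun _ => 1) fun _ => 0
  have h1 : ∀ v, Feasible I v → ∃ y, Basic A b y ∧ ((∑ i, w i * y i : ℚ) : ℝ) ≤ v := by
    rintro v ⟨z, z1, z2, z3, rfl⟩
    have hs : ∀ φ : Multiset ℚ → ℝ, ∑ c ∈ z.support, φ c * z c = ∑ c : C, φ c * z c := fun φ => by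
      rw [sum_coe_sort C fun c => φ c * z c]
      exact sum_subset (fun c hc => (hC c).2 (z2 c hc))
        fun c _ hc => by rw [Finsupp.notMem_support_iff.1 hc, mul_zero]
    obtain ⟨y, hy, hle⟩ := exists_basic A b w (by rintro (c | s) <;> simp [w])
      (Sum.elim (fun c => z c) fun s => ∑ c : C, (c.1.count s.1 : ℝ) * z c - I.count s.1)
      (by
        rintro (c | s)
        · exact z1 _
        · have := z3 s.1 (Multiset.mem_toFinset.1 s.2)
          rw [hs fun c => (c.count s.1 : ℝ)] at this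
          simpa using this)
      (fun s => by
        simp only [Fintype.sum_sum_type, A, b, Sum.elim_inl, Sum.elim_inr]
        rw [sum_eq_single s (fun r _ hr => by simp [hr]) (by simp)]
        simp)
    refine ⟨y, hy, hle.trans (le_of_eq ?_)⟩
    have := hs fun _ => 1
    simp only [one_mul] at this
    rw [this]
    simp [Fintype.sum_sum_type, w]
  have h2 : ∀ y, Basic A b y → ∃ t k : ℕ, 1 ≤ t ∧ Packs (t • I) k ∧
      ((∑ i, w i * y i : ℚ) : ℝ) = (k : ℝ) / t := by
    intro y hy
    obtain ⟨t, ht, n, hn⟩ := common_den y hy.1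
    have ht' : (0 : ℝ) < t := by exact_mod_cast ht
    have hp : Packs (∑ c : C, n (Sum.inl c) • c.1) (∑ c : C, n (Sum.inl c)) := by
      induction (univ : Finset C) using Finset.induction_on with
      | empty => simpa using packs_zero 0
      | insert c S hc ih =>
        rw [sum_insert hc, sum_insert hc]
        simpa using ((packs_one ((hC c).1 c.2).2).nsmul (n (Sum.inl c))).add ih
    refine ⟨t, _, ht, hp.of_le (fun s hs => ?_) (Multiset.le_iff_count.2 fun s => ?_), ?_⟩
    · obtain ⟨c, -, hc⟩ := Multiset.mem_sum.1 hs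
      exact (hI s (((hC c).1 c.2).1 s (Multiset.mem_of_mem_nsmul hc))).1.le
    · by_cases hs : s ∈ I
      · have h3 := hy.2.1 ⟨s, Multiset.mem_toFinset.2 hs⟩
        simp only [Fintype.sum_sum_type, A, b, Sum.elim_inl, Sum.elim_inr] at h3
        rw [sum_eq_single (⟨s, Multiset.mem_toFinset.2 hs⟩ : I.toFinset)
          (fun r _ hr => by simp [hr]) (by simp), if_pos rfl] at h3
        have h4 := hy.1 (Sum.inr ⟨s, Multiset.mem_toFinset.2 hs⟩)
        have h5 : ((t * I.count s : ℕ) : ℚ) ≤ (∑ c : C, n (Sum.inl c) * c.1.count s : ℕ) := by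
          push_cast
          simp only [hn, mul_assoc, ← mul_sum]
          refine mul_le_mul_of_nonneg_left ?_ (Nat.cast_nonneg _)
          simp only [mul_comm (y _)]
          linarith
        rw [Multiset.count_nsmul, Multiset.count_sum']
        simp only [Multiset.count_nsmul]
        exact_mod_cast h5
      · rw [Multiset.count_nsmul, Multiset.count_eq_zero_of_notMem hs]
        exact Nat.zero_le _
    · rw [eq_div_iff ht'.ne']
      have : (∑ i, w i * y i) * t = (∑ c : C, n (Sum.inl c) : ℕ) := by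
        push_cast
        simp [Fintype.sum_sum_type, w, hn, mul_sum, mul_comm]
      exact_mod_cast this
  obtain ⟨y0, hy0, -⟩ := h1 _ (feasible_of_packs (t := 1) le_rfl (by simpa using packs_card hI))
  obtain ⟨y, hy, hmin⟩ := Set.exists_min_image _ (fun y => ∑ i, w i * y i) (basic_finite A b)
    ⟨y0, hy0⟩
  obtain ⟨t, k, ht, hk, e⟩ := h2 y hy
  refine ⟨t, k, ht, hk, feasible_of_packs ht hk, fun v hv => ?_⟩
  obtain ⟨y', hy', hle⟩ := h1 v hv
  rw [← e]
  exact le_trans (by exact_mod_cast hmin y' hy') hle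

end Vale.Agent.N302T
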